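import Vale.Agent.P153.R2.Base.Defs

/-!
# P153-R2, block BASE: averages, conditioning on fibres, finiteness
-/

namespace Vale.Agent.P153.R2

open Set Relation
open Vale.Agent.P153
open Vale.Agent.P153.Topo (Conn)

section Avg

variable {α β : Type*} {S T A B : Set α} {F G : α → ℝ}

theorem Ex_eq_ev (hS : S.Finite) (F : α → ℝ) : Ex S F = ev hS.toFinset F := by
  unfold Ex ev
  rw [finsum_mem_eq_finite_toFinset_sum _ hS, Set.ncard_eq_toFinset_card S hS]

theorem Ex_eq_ev' (S : Finset α) (F : α → ℝ) : Ex (S : Set α) F = ev S F := by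
  unfold Ex ev
  rw [finsum_mem_coe_finset, Set.ncard_coe_finset]

theorem Ex_infinite (hS : S.Infinite) (F : α → ℝ) : Ex S F = 0 := by
  unfold Ex
  rw [hS.ncard]
  simp

theorem Ex_empty (F : α → ℝ) : Ex (∅ : Set α) F = 0 := by
  unfold Ex
  simp

theorem Ex_congr (h : ∀ a ∈ S, F a = G a) : Ex S F = Ex S G := by
  unfold Ex
  rw [finsum_mem_congr rfl h]

theorem Ex_add (F G : α → ℝ) : Ex S (fun a => F a + G a) = Ex S F + Ex S G := by
  by_cases hS : S.Finite
  · rw [Ex_eq_ev hS, Ex_eq_ev hS, Ex_eq_ev hS, ev_add]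
  · rw [Ex_infinite hS, Ex_infinite hS, Ex_infinite hS, add_zero]

theorem Ex_sub (F G : α → ℝ) : Ex S (fun a => F a - G a) = Ex S F - Ex S G := by
  by_cases hS : S.Finite
  · rw [Ex_eq_ev hS, Ex_eq_ev hS, Ex_eq_ev hS, ev_sub]
  · rw [Ex_infinite hS, Ex_infinite hS, Ex_infinite hS, sub_zero]

theorem Ex_const_mul (c : ℝ) (F : α → ℝ) : Ex S (fun a => c * F a) = c * Ex S F := by
  by_cases hS : S.Finite
  · rw [Ex_eq_ev hS, Ex_eq_ev hS, ev_const_mul]
  · rw [Ex_infinite hS, Ex_infinite hS, mul_zero]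

theorem Ex_neg (F : α → ℝ) : Ex S (fun a => - F a) = - Ex S F := by
  have := Ex_const_mul (S := S) (-1) F
  simpa using this

theorem Ex_zero : Ex S (fun _ => (0 : ℝ)) = 0 := by
  have := Ex_const_mul (S := S) 0 (fun _ => (0 : ℝ))
  simpa using this

theorem Ex_const (hS : S.Finite) (hn : S.Nonempty) (c : ℝ) : Ex S (fun _ => c) = c := by
  rw [Ex_eq_ev hS, ev_const _ ((Set.Finite.toFinset_nonempty hS).2 hn)]

theorem Ex_sum {ι : Type*} (s : Finset ι) (F : ι → α → ℝ) :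
    Ex S (fun a => ∑ i ∈ s, F i a) = ∑ i ∈ s, Ex S (F i) := by
  classical
  induction s using Finset.induction_on with
  | empty => simpa using Ex_zero
  | insert i s hi ih =>
    rw [Finset.sum_insert hi, ← ih, ← Ex_add]
    apply Ex_congr
    intro a _
    rw [Finset.sum_insert hi]

theorem Ex_mono (h : ∀ a ∈ S, F a ≤ G a) : Ex S F ≤ Ex S G := by
  by_cases hS : S.Finite
  · rw [Ex_eq_ev hS, Ex_eq_ev hS]
    exact ev_mono _ _ _ fun a ha => h a (by simpa using ha)
  · rw [Ex_infinite hS, Ex_infinite hS]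

theorem Ex_nonneg (h : ∀ a ∈ S, 0 ≤ F a) : 0 ≤ Ex S F := by
  have := Ex_mono (S := S) (F := fun _ => 0) (G := F) h
  rwa [Ex_zero] at this

theorem Ex_le_const {c : ℝ} (hc : 0 ≤ c) (h : ∀ a ∈ S, F a ≤ c) : Ex S F ≤ c := by
  by_cases hS : S.Finite
  · rcases S.eq_empty_or_nonempty with h0 | h0
    · rw [h0, Ex_empty]; exact hc
    · exact (Ex_mono h).trans_eq (Ex_const hS h0 c)
  · rw [Ex_infinite hS]; exact hc

theorem abs_Ex_le (F : α → ℝ) : |Ex S F| ≤ Ex S (fun a => |F a|) := by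
  rw [abs_le]
  constructor
  · rw [← Ex_neg]
    exact Ex_mono fun a _ => neg_abs_le _
  · exact Ex_mono fun a _ => le_abs_self _

theorem Ex_image {f : α → β} (hf : InjOn f S) (F : β → ℝ) : Ex (f '' S) F = Ex S (fun a => F (f a)) := by
  unfold Ex
  rw [finsum_mem_image hf, hf.ncard_image]

/-- Transfer along a bijection. -/
theorem Ex_bij {T : Set β} (f : α → β) (hf : BijOn f S T) (F : β → ℝ) :
    Ex T F = Ex S (fun a => F (f a)) := by
  rw [← hf.image_eq, Ex_image hf.injOn]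

/-- The average over a subset. -/
theorem Ex_inter_mul (hS : S.Finite) (A : Set α) (F : α → ℝ) :
    Pr S A * Ex (S ∩ A) F = Ex S (fun a => ind A a * F a) := by
  classical
  have hSA : (S ∩ A).Finite := hS.inter_of_left A
  have key : ∑ᶠ a ∈ S, ind A a * F a = ∑ᶠ a ∈ S ∩ A, F a := by
    rw [finsum_mem_eq_finite_toFinset_sum _ hS, finsum_mem_eq_finite_toFinset_sum _ hSA]
    symm
    apply Finset.sum_subset_zero_on_sdiff
    · intro a ha
      simp only [Set.Finite.mem_toFinset] at ha ⊢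
      exact ha.1
    · intro a ha
      simp only [Finset.mem_sdiff, Set.Finite.mem_toFinset, Set.mem_inter_iff, not_and] at ha
      have : a ∉ A := ha.2 ha.1
      simp [ind, this]
    · intro a ha
      simp only [Set.Finite.mem_toFinset, Set.mem_inter_iff] at ha
      simp [ind, ha.2]
  unfold Pr Ex
  rw [key]
  rcases eq_or_ne (S ∩ A).ncard 0 with h0 | h0
  · have : S ∩ A = ∅ := (Set.ncard_eq_zero hSA).1 h0
    rw [this]
    simp
  · have h1 : ((S ∩ A).ncard : ℝ) ≠ 0 := by exact_mod_cast h0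
    field_simp

theorem Pr_eq_Ex (hS : S.Finite) (A : Set α) : Pr S A = Ex S (ind A) := by
  have h := Ex_inter_mul hS A (fun _ => 1)
  rcases (S ∩ A).eq_empty_or_nonempty with h0 | h0
  · have h1 : Ex S (ind A) = Ex S (fun _ => (0 : ℝ)) := Ex_congr fun a ha => by
      have : a ∉ A := fun haA => by
        have : a ∈ S ∩ A := ⟨ha, haA⟩
        rw [h0] at this
        exact this
      simp [ind, this]
    rw [h1, Ex_zero]
    unfold Pr
    rw [h0]
    simp
  · rw [Ex_const (hS.inter_of_left A) h0, mul_one] at h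
    rw [h]
    exact Ex_congr fun a _ => by ring

theorem Pr_infinite (hS : S.Infinite) (A : Set α) : Pr S A = 0 := by
  unfold Pr
  rw [hS.ncard]
  simp

theorem Pr_nonneg (S A : Set α) : 0 ≤ Pr S A := by
  unfold Pr
  positivity

theorem Pr_le_one (S A : Set α) : Pr S A ≤ 1 := by
  by_cases hS : S.Finite
  · unfold Pr
    apply div_le_one_of_le₀ _ (by positivity)
    exact_mod_cast Set.ncard_le_ncard Set.inter_subset_left hS
  · rw [Pr_infinite hS]; norm_num

theorem Pr_mono (h : ∀ a ∈ S, a ∈ A → a ∈ B) : Pr S A ≤ Pr S B := by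
  by_cases hS : S.Finite
  · unfold Pr
    apply div_le_div_of_nonneg_right _ (by positivity)
    have h1 : S ∩ A ⊆ S ∩ B := fun a ha => ⟨ha.1, h a ha.1 ha.2⟩
    exact_mod_cast Set.ncard_le_ncard h1 (hS.inter_of_left B)
  · rw [Pr_infinite hS, Pr_infinite hS]

theorem Pr_congr (h : ∀ a ∈ S, a ∈ A ↔ a ∈ B) : Pr S A = Pr S B :=
  le_antisymm (Pr_mono fun a ha => (h a ha).1) (Pr_mono fun a ha => (h a ha).2)

theorem Pr_univ (hS : S.Finite) (hn : S.Nonempty) : Pr S univ = 1 := by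
  unfold Pr
  rw [inter_univ]
  have : (S.ncard : ℝ) ≠ 0 := by
    have := (Set.ncard_pos hS).2 hn
    exact_mod_cast this.ne'
  exact div_self this

theorem Pr_add_compl (hS : S.Finite) (hn : S.Nonempty) (A : Set α) : Pr S A + Pr S Aᶜ = 1 := by
  classical
  rw [Pr_eq_Ex hS, Pr_eq_Ex hS, ← Ex_add]
  have h1 : Ex S (fun a => ind A a + ind Aᶜ a) = Ex S (fun _ => 1) := Ex_congr fun a _ => by
    by_cases ha : a ∈ A <;> simp [ind, ha]
  rw [h1, Ex_const hS hn]

theorem Pr_union_le (S A B : Set α) : Pr S (A ∪ B) ≤ Pr S A + Pr S B := by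
  by_cases hS : S.Finite
  · rw [Pr_eq_Ex hS, Pr_eq_Ex hS, Pr_eq_Ex hS, ← Ex_add]
    classical
    refine Ex_mono fun a _ => ?_
    by_cases ha : a ∈ A <;> by_cases hb : a ∈ B <;> simp [ind, ha, hb]
  · rw [Pr_infinite hS, Pr_infinite hS, Pr_infinite hS, add_zero]

/-- Law of total expectation over the fibres of a map. -/
theorem Ex_total [DecidableEq β] (hS : S.Finite) (φ : α → β) (F : α → ℝ) :
    Ex S F = ∑ b ∈ hS.toFinset.image φ, Pr S (φ ⁻¹' {b}) * Ex (S ∩ φ ⁻¹' {b}) F := by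
  classical
  have h1 : ∀ b, Pr S (φ ⁻¹' {b}) * Ex (S ∩ φ ⁻¹' {b}) F = Ex S (fun a => ind (φ ⁻¹' {b}) a * F a) :=
    fun b => Ex_inter_mul hS _ F
  simp only [h1]
  rw [← Ex_sum]
  apply Ex_congr
  intro a ha
  rw [← Finset.sum_mul]
  have h2 : ∑ b ∈ hS.toFinset.image φ, ind (φ ⁻¹' {b}) a = 1 := by
    rw [Finset.sum_eq_single (φ a)]
    · simp [ind]
    · intro b _ hb
      simp [ind, hb.symm]
    · intro h
      exfalso
      apply h
      exact Finset.mem_image_of_mem φ (by simpa using ha)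
  rw [h2, one_mul]

/-- Averages fibre by fibre (fibres of `φ`; `G` is constant on the fibres and nonnegative). -/
theorem Ex_le_of_fiber (hS : S.Finite) (φ : α → β) (F : α → ℝ) (G : α → ℝ)
    (hG : ∀ a ∈ S, ∀ b ∈ S, φ a = φ b → G a = G b)
    (h : ∀ a ∈ S, Ex (S ∩ {b | φ b = φ a}) F ≤ G a) : Ex S F ≤ Ex S G := by
  classical
  rw [Ex_total hS φ F, Ex_total hS φ G]
  apply Finset.sum_le_sum
  intro b hb
  obtain ⟨a, ha, rfl⟩ := Finset.mem_image.1 hb
  rw [Set.Finite.mem_toFinset] at ha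
  apply mul_le_mul_of_nonneg_left _ (Pr_nonneg _ _)
  have e : φ ⁻¹' {φ a} = {b | φ b = φ a} := rfl
  rw [e]
  have h2 : Ex (S ∩ {b | φ b = φ a}) G = G a := by
    rw [Ex_congr (G := fun _ => G a) (fun c hc => hG c hc.1 a ha hc.2)]
    exact Ex_const (S := S ∩ {b | φ b = φ a}) (hS.inter_of_left _) ⟨a, ha, rfl⟩ _
  rw [h2]
  exact h a ha

theorem Ex_eq_of_fiber (hS : S.Finite) (φ : α → β) (F : α → ℝ) (G : α → ℝ)
    (hG : ∀ a ∈ S, ∀ b ∈ S, φ a = φ b → G a = G b)
    (h : ∀ a ∈ S, Ex (S ∩ {b | φ b = φ a}) F = G a) : Ex S F = Ex S G := by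
  apply le_antisymm
  · exact Ex_le_of_fiber hS φ F G hG fun a ha => (h a ha).le
  · have := Ex_le_of_fiber hS φ (fun a => - F a) (fun a => - G a)
      (fun a ha b hb hab => by rw [hG a ha b hb hab])
      (fun a ha => by rw [Ex_neg, h a ha])
    rw [Ex_neg, Ex_neg] at this
    linarith

/-- Probabilities fibre by fibre. -/
theorem Pr_le_of_fiber (hS : S.Finite) (φ : α → β) (A B : Set α) {c : ℝ}
    (hB : ∀ a ∈ S, ∀ b ∈ S, φ a = φ b → (a ∈ B ↔ b ∈ B))
    (h : ∀ a ∈ S, a ∈ B → Pr (S ∩ {b | φ b = φ a}) A ≤ c) : Pr S (B ∩ A) ≤ c * Pr S B := by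
  classical
  rw [Pr_eq_Ex hS, Pr_eq_Ex hS, ← Ex_const_mul]
  apply Ex_le_of_fiber hS φ
  · intro a ha b hb hab
    have := hB a ha b hb hab
    by_cases h1 : a ∈ B
    · simp [ind, h1, this.1 h1]
    · have h2 : b ∉ B := fun h3 => h1 (this.2 h3)
      simp [ind, h1, h2]
  · intro a ha
    by_cases h1 : a ∈ B
    · have h2 := h a ha h1
      rw [Pr_eq_Ex (hS.inter_of_left _)] at h2
      have h3 : Ex (S ∩ {b | φ b = φ a}) (ind (B ∩ A)) = Ex (S ∩ {b | φ b = φ a}) (ind A) :=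
        Ex_congr fun b hb => by
          have hb2 : b ∈ B := (hB a ha b hb.1 hb.2.symm).1 h1
          by_cases h4 : b ∈ A <;> simp [ind, hb2, h4]
      rw [h3]
      simpa [ind, h1] using h2
    · have h3 : Ex (S ∩ {b | φ b = φ a}) (ind (B ∩ A)) = Ex (S ∩ {b | φ b = φ a}) (fun _ => 0) :=
        Ex_congr fun b hb => by
          have hb2 : b ∉ B := fun h5 => h1 ((hB a ha b hb.1 hb.2.symm).2 h5)
          simp [ind, hb2]
      rw [h3, Ex_zero]
      simp [ind, h1]

theorem Pr_ge_of_fiber (hS : S.Finite) (φ : α → β) (A B : Set α) {c : ℝ}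
    (hB : ∀ a ∈ S, ∀ b ∈ S, φ a = φ b → (a ∈ B ↔ b ∈ B))
    (h : ∀ a ∈ S, a ∈ B → c ≤ Pr (S ∩ {b | φ b = φ a}) A) : c * Pr S B ≤ Pr S (B ∩ A) := by
  classical
  rw [Pr_eq_Ex hS, Pr_eq_Ex hS, ← Ex_const_mul]
  have key := Ex_le_of_fiber hS φ (fun a => - ind (B ∩ A) a) (fun a => - (c * ind B a)) ?_ ?_
  · rw [Ex_neg, Ex_neg] at key
    linarith
  · intro a ha b hb hab
    have := hB a ha b hb hab
    by_cases h1 : a ∈ B
    · simp [ind, h1, this.1 h1]
    · have h2 : b ∉ B := fun h3 => h1 (this.2 h3)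
      simp [ind, h1, h2]
  · intro a ha
    rw [Ex_neg]
    by_cases h1 : a ∈ B
    · have h2 := h a ha h1
      rw [Pr_eq_Ex (hS.inter_of_left _)] at h2
      have h3 : Ex (S ∩ {b | φ b = φ a}) (ind (B ∩ A)) = Ex (S ∩ {b | φ b = φ a}) (ind A) :=
        Ex_congr fun b hb => by
          have hb2 : b ∈ B := (hB a ha b hb.1 hb.2.symm).1 h1
          by_cases h4 : b ∈ A <;> simp [ind, hb2, h4]
      rw [h3]
      simpa [ind, h1] using h2
    · have h3 : Ex (S ∩ {b | φ b = φ a}) (ind (B ∩ A)) = Ex (S ∩ {b | φ b = φ a}) (fun _ => 0) :=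
        Ex_congr fun b hb => by
          have hb2 : b ∉ B := fun h5 => h1 ((hB a ha b hb.1 hb.2.symm).2 h5)
          simp [ind, hb2]
      rw [h3, Ex_zero]
      simp [ind, h1]

/-- Cauchy-Schwarz. -/
theorem Ex_mul_sq_le (hS : S.Finite) (F G : α → ℝ) :
    (Ex S (fun a => F a * G a)) ^ 2 ≤ Ex S (fun a => F a ^ 2) * Ex S (fun a => G a ^ 2) := by
  rw [Ex_eq_ev hS, Ex_eq_ev hS, Ex_eq_ev hS]
  unfold ev
  rw [div_pow, div_mul_div_comm, ← sq]
  apply div_le_div_of_nonneg_right _ (by positivity)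
  exact Finset.sum_mul_sq_le_sq_mul_sq _ _ _

end Avg

/-! ### Finiteness of `Cfg` -/

/-- Functions with finitely many choices at each point and one choice at most off a finite set. -/
theorem finite_pi {J : Pt → Set ℤ} (U : Set Pt) (hU : U.Finite) (hJ : ∀ x ∈ U, (J x).Finite)
    (hs : ∀ x, x ∉ U → (J x).Subsingleton) : {h : Hg | ∀ x, h x ∈ J x}.Finite := by
  classical
  have : Finite U := hU
  have h1 : {g : U → ℤ | ∀ x : U, g x ∈ J x}.Finite := by
    have e : {g : U → ℤ | ∀ x : U, g x ∈ J x} = Set.pi univ (fun x : U => J x) := by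
      ext g; simp
    rw [e]
    exact Set.Finite.pi fun x => hJ x x.2
  have hm : MapsTo (fun (h : Hg) (x : U) => h x) {h : Hg | ∀ x, h x ∈ J x}
      {g : U → ℤ | ∀ x : U, g x ∈ J x} := fun h hh x => hh x
  refine Set.Finite.of_injOn hm ?_ h1
  intro h hh g hg hgh
  funext x
  by_cases hx : x ∈ U
  · exact congrFun hgh ⟨x, hx⟩
  · exact hs x hx (hh x) (hg x)

variable {V : Set Pt} {I : Pt → Set ℤ} {h g : Hg}

theorem Cfg.odd (hh : h ∈ Cfg V I) (x : Pt) : Odd (h x) := hh.1 x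
theorem Cfg.mem (hh : h ∈ Cfg V I) (x : Pt) : h x ∈ I x := hh.2.1 x
theorem Cfg.lip (hh : h ∈ Cfg V I) {x y : Pt} (hx : x ∈ V) (hxy : Adj x y) : |h x - h y| ≤ 2 :=
  hh.2.2 x hx y hxy

theorem adj_comm' {x y : Pt} : Adj x y ↔ Adj y x := ⟨Topo.adj_symm, Topo.adj_symm⟩

theorem Cfg.lip' (hh : h ∈ Cfg V I) {x y : Pt} (hx : y ∈ V) (hxy : Adj x y) : |h x - h y| ≤ 2 := by
  rw [abs_sub_comm]
  exact hh.2.2 y hx x (Topo.adj_symm hxy)

theorem adj_right (x : Pt) : Adj x (x.1 + 1, x.2) := by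
  rw [Topo.adj_iff]; simp

theorem Cfg_finite (hd : Dat V I) : (Cfg V I).Finite := by
  classical
  -- a bound for the heights at the vertices off `V` next to `V`
  have hnb : ∀ n : ℕ, ∀ x : Pt, (x.1 + n, x.2) ∉ V → ∃ M : ℤ, ∀ h ∈ Cfg V I, |h x| ≤ M := by
    intro n
    induction n with
    | zero =>
      intro x hx
      have hx' : x ∉ V := by simpa using hx
      obtain ⟨M, hM⟩ := ((hd.bdd x hx').image (fun a => |a|)).bddAbove
      exact ⟨M, fun h hh => hM ⟨h x, hh.2.1 x, rfl⟩⟩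
    | succ n ih =>
      intro x hx
      by_cases hxV : x ∈ V
      · obtain ⟨M, hM⟩ := ih (x.1 + 1, x.2) (by
          have : ((x.1 + 1 + n, x.2) : Pt) = (x.1 + (n + 1 : ℕ), x.2) := by
            push_cast; ring_nf
          simpa [this] using hx)
        refine ⟨M + 2, fun h hh => ?_⟩
        have h1 := hh.2.2 x hxV _ (adj_right x)
        have h2 := hM h hh
        have h3 := abs_sub_abs_le_abs_sub (h x) (h (x.1 + 1, x.2))
        linarith
      · obtain ⟨M, hM⟩ := ((hd.bdd x hxV).image (fun a => |a|)).bddAbove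
        exact ⟨M, fun h hh => hM ⟨h x, hh.2.1 x, rfl⟩⟩
  have hex : ∀ x : Pt, ∃ n : ℕ, ((x.1 + n, x.2) : Pt) ∉ V := by
    intro x
    by_contra hcon
    push Not at hcon
    have : (Set.range fun n : ℕ => ((x.1 + n, x.2) : Pt)) ⊆ V := by
      rintro _ ⟨n, rfl⟩
      exact hcon n
    have hfin := hd.fin.subset this
    have hinj : Function.Injective fun n : ℕ => ((x.1 + n, x.2) : Pt) := by
      intro n m hnm
      simpa using hnm
    exact Set.infinite_range_of_injective hinj hfin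
  choose n hn using hex
  choose M hM using fun x => hnb (n x) x (hn x)
  let U : Set Pt := V ∪ {x | ¬ (I x).Subsingleton}
  have hU : U.Finite := hd.fin.union hd.cof
  refine (finite_pi (J := fun x => I x ∩ {a | |a| ≤ M x}) U hU ?_ ?_).subset ?_
  · intro x _
    apply Set.Finite.subset (Set.finite_Icc (-(M x)) (M x))
    intro a ha
    exact abs_le.1 ha.2
  · intro x hx
    have : (I x).Subsingleton := by
      by_contra h1
      exact hx (Or.inr h1)
    exact this.anti Set.inter_subset_left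
  · intro h hh x
    exact ⟨hh.2.1 x, hM x h hh⟩

/-! ### Domain Markov property -/

open Classical in
/-- The configurations which agree with `h` off `V'`. -/
theorem Cfg_agree (hh : h ∈ Cfg V I) {V' : Set Pt} (hV : V' ⊆ V) :
    Cfg V I ∩ {g | ∀ x, x ∉ V' → g x = h x} =
      Cfg V' (fun x => if x ∈ V' then I x else {h x}) := by
  ext g
  constructor
  · rintro ⟨hg, hgh⟩
    refine ⟨hg.1, fun x => ?_, fun x hx y hxy => hg.2.2 x (hV hx) y hxy⟩
    by_cases hx : x ∈ V'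
    · simpa [hx] using hg.2.1 x
    · simpa [hx] using hgh x hx
  · intro hg
    have h1 : ∀ x, x ∉ V' → g x = h x := fun x hx => by simpa [hx] using hg.2.1 x
    refine ⟨⟨hg.1, fun x => ?_, fun x hx y hxy => ?_⟩, h1⟩
    · by_cases hx : x ∈ V'
      · simpa [hx] using hg.2.1 x
      · rw [h1 x hx]; exact hh.2.1 x
    · by_cases hx' : x ∈ V'
      · exact hg.2.2 x hx' y hxy
      · by_cases hy : y ∈ V'
        · rw [abs_sub_comm]
          exact hg.2.2 y hy x (Topo.adj_symm hxy)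
        · rw [h1 x hx', h1 y hy]
          exact hh.2.2 x hx y hxy

/-- Edges between vertices of `N` and other vertices off `V \ N` carry no condition if the data are
compatible. -/
theorem Cfg_sdiff {N : Set Pt}
    (hN : ∀ x ∈ N, ∀ y, y ∉ V \ N → Adj x y → ∀ a ∈ I x, ∀ b ∈ I y, |a - b| ≤ 2) :
    Cfg V I = Cfg (V \ N) I := by
  ext g
  constructor
  · rintro hg
    exact ⟨hg.1, hg.2.1, fun x hx y hxy => hg.2.2 x hx.1 y hxy⟩
  · rintro hg
    refine ⟨hg.1, hg.2.1, fun x hx y hxy => ?_⟩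
    by_cases hxN : x ∈ N
    · by_cases hy : y ∈ V \ N
      · rw [abs_sub_comm]
        exact hg.2.2 y hy x (Topo.adj_symm hxy)
      · exact hN x hxN y hy hxy _ (hg.2.1 x) _ (hg.2.1 y)
    · exact hg.2.2 x ⟨hx, hxN⟩ y hxy

theorem Cfg_cns (A : Set Pt) (J : Pt → Set ℤ) :
    Cfg V (cns I A J) = Cfg V I ∩ {h | ∀ x ∈ A, h x ∈ J x} := by
  classical
  ext g
  constructor
  · intro hg
    refine ⟨⟨hg.1, fun x => ?_, hg.2.2⟩, fun x hx => ?_⟩
    · have := hg.2.1 x
      unfold cns at this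
      split_ifs at this with h1
      · exact this.1
      · exact this
    · have := hg.2.1 x
      unfold cns at this
      rw [if_pos hx] at this
      exact this.2
  · rintro ⟨hg, hgA⟩
    refine ⟨hg.1, fun x => ?_, hg.2.2⟩
    unfold cns
    split_ifs with h1
    · exact ⟨hg.2.1 x, hgA x h1⟩
    · exact hg.2.1 x

/-! ### Lattice structure -/

theorem Cfg.inf_mem {I J : Pt → Set ℤ} (hI : ∀ x, ∀ a ∈ I x, ∀ b ∈ J x, min a b ∈ I x)
    (hh : h ∈ Cfg V I) (hg : g ∈ Cfg V J) : h ⊓ g ∈ Cfg V I := by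
  refine ⟨fun x => ?_, fun x => hI x _ (hh.2.1 x) _ (hg.2.1 x), fun x hx y hxy => ?_⟩
  · rcases min_choice (h x) (g x) with h1 | h1
    · simpa only [Pi.inf_apply, h1] using hh.1 x
    · simpa only [Pi.inf_apply, h1] using hg.1 x
  · have := abs_min_sub_min_le_max (h x) (g x) (h y) (g y)
    exact this.trans (max_le (hh.2.2 x hx y hxy) (hg.2.2 x hx y hxy))

theorem Cfg.sup_mem {I J : Pt → Set ℤ} (hI : ∀ x, ∀ a ∈ I x, ∀ b ∈ J x, max a b ∈ J x)
    (hh : h ∈ Cfg V I) (hg : g ∈ Cfg V J) : h ⊔ g ∈ Cfg V J := by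
  refine ⟨fun x => ?_, fun x => hI x _ (hh.2.1 x) _ (hg.2.1 x), fun x hx y hxy => ?_⟩
  · rcases max_choice (h x) (g x) with h1 | h1
    · simpa only [Pi.sup_apply, h1] using hh.1 x
    · simpa only [Pi.sup_apply, h1] using hg.1 x
  · have := abs_max_sub_max_le_max (h x) (g x) (h y) (g y)
    exact this.trans (max_le (hh.2.2 x hx y hxy) (hg.2.2 x hx y hxy))

theorem min_mem_self (S : Set ℤ) : ∀ a ∈ S, ∀ b ∈ S, min a b ∈ S := fun a ha b hb => by
  rcases min_choice a b with h1 | h1 <;> rw [h1] <;> assumption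

theorem max_mem_self (S : Set ℤ) : ∀ a ∈ S, ∀ b ∈ S, max a b ∈ S := fun a ha b hb => by
  rcases max_choice a b with h1 | h1 <;> rw [h1] <;> assumption

theorem SLe.refl (S : Set ℤ) : SLe S S := fun a ha b hb =>
  ⟨min_mem_self S a ha b hb, max_mem_self S a ha b hb⟩

/-- Monotonicity in the data (strong order), for increasing functions. -/
theorem Cfg_le {I J : Pt → Set ℤ} (hI : Dat V I) (hJ : Dat V J) (hne : (Cfg V I).Nonempty)
    (hne' : (Cfg V J).Nonempty) (hIJ : ∀ x, SLe (I x) (J x)) (F : Hg → ℝ) (hF : Monotone F) :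
    Ex (Cfg V I) F ≤ Ex (Cfg V J) F := by
  rw [Ex_eq_ev (Cfg_finite hI), Ex_eq_ev (Cfg_finite hJ)]
  apply ev_le_ev _ _ (by simpa using hne) (by simpa using hne') _ _ F hF
  · intro a ha b hb
    simp only [Set.Finite.mem_toFinset] at *
    exact Cfg.inf_mem (fun x a ha b hb => (hIJ x a ha b hb).1) ha hb
  · intro a ha b hb
    simp only [Set.Finite.mem_toFinset] at *
    exact Cfg.sup_mem (fun x a ha b hb => (hIJ x a ha b hb).2) ha hb

/-- Positive association of the heights, for arbitrary single-site data. -/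
theorem Cfg_fkg (hI : Dat V I) (hne : (Cfg V I).Nonempty) (F G : Hg → ℝ) (hF : Monotone F)
    (hG : Monotone G) :
    Ex (Cfg V I) F * Ex (Cfg V I) G ≤ Ex (Cfg V I) (fun h => F h * G h) := by
  rw [Ex_eq_ev (Cfg_finite hI), Ex_eq_ev (Cfg_finite hI), Ex_eq_ev (Cfg_finite hI)]
  apply ev_mul_ge _ (by simpa using hne) _ _ F G hF hG
  · intro a ha b hb
    simp only [Set.Finite.mem_toFinset] at *
    exact Cfg.inf_mem (fun x => min_mem_self _) ha hb
  · intro a ha b hb
    simp only [Set.Finite.mem_toFinset] at *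
    exact Cfg.sup_mem (fun x => max_mem_self _) ha hb

end Vale.Agent.P153.R2
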