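import Vale.Agent.P153.Bd5.B6

/-!
# P153-R2, block BASE: finite-volume laws of odd heights with arbitrary single-site data

* `Cfg V I`: odd heights `h` with `h x ∈ I x` for all `x`, steps at most two along the edges which
  touch `V` (no condition along the edges between two vertices off `V`). Usually `I x = univ` on `V`.
* `Ex S F`, `Pr S A`: average and proportion for the uniform law on `S`.
* `Cl S A`: the vertices joined to `A` by paths of vertices in `S`.
* `up h a`, `dn h a`: level sets `{h ≥ a}`, `{h ≤ a}`; `far h m`: `{|h - m| ≠ 1}`.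
* `ebd S`: outer vertex boundary; `ibd S`: inner vertex boundary; `nb S = S ∪ ebd S`.
* `CC V`: the complement of `V` is connected (each component of `V` is simply connected).
* data: `exa V η` (exact data), `frd V m` (free data `{m - 1, m + 1}` on the outer boundary).
-/

namespace Vale.Agent.P153.R2

open Set Relation
open Vale.Agent.P153
open Vale.Agent.P153.Topo (Conn)

export Vale.Agent.P153.F (Pt Hg)

/-- Heights with single-site data: odd, `h x ∈ I x` everywhere, steps at most two along all the
edges which touch `V`. -/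
def Cfg (V : Set Pt) (I : Pt → Set ℤ) : Set Hg :=
  {h | (∀ x, Odd (h x)) ∧ (∀ x, h x ∈ I x) ∧ ∀ x ∈ V, ∀ y, Adj x y → |h x - h y| ≤ 2}

/-- Finiteness conditions: `V` is finite, the sets of data off `V` are finite, and all but finitely
many vertices have at most one possible height. -/
structure Dat (V : Set Pt) (I : Pt → Set ℤ) : Prop where
  fin : V.Finite
  bdd : ∀ x, x ∉ V → (I x).Finite
  cof : {x | ¬ (I x).Subsingleton}.Finite

/-- The average of `F` over the finite set `S` (zero if `S` is empty or infinite). -/
noncomputable def Ex {α : Type*} (S : Set α) (F : α → ℝ) : ℝ := (∑ᶠ a ∈ S, F a) / (S.ncard : ℝ)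

/-- The proportion of `A` in the finite set `S`: the probability of `A` under the uniform law. -/
noncomputable def Pr {α : Type*} (S A : Set α) : ℝ := ((S ∩ A).ncard : ℝ) / (S.ncard : ℝ)

open Classical in
/-- Indicator function. -/
noncomputable def ind {α : Type*} (A : Set α) : α → ℝ := fun a => if a ∈ A then 1 else 0

/-! ### Sets of vertices -/

/-- The vertices joined to `A` by a path of vertices in `S` (both ends in `S`). -/
def Cl (S A : Set Pt) : Set Pt := {y | ∃ x ∈ A, Conn S x y}

/-- Outer vertex boundary. -/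
def ebd (S : Set Pt) : Set Pt := {y | y ∉ S ∧ ∃ x ∈ S, Adj x y}

/-- Inner vertex boundary. -/
def ibd (S : Set Pt) : Set Pt := {x | x ∈ S ∧ ∃ y, y ∉ S ∧ Adj x y}

/-- `S` and its neighbours. -/
def nb (S : Set Pt) : Set Pt := S ∪ ebd S

/-- The complement of `V` is connected. -/
def CC (V : Set Pt) : Prop := ∀ x y, x ∉ V → y ∉ V → Conn Vᶜ x y

/-- `S` is connected. -/
def Cn (S : Set Pt) : Prop := ∀ x ∈ S, ∀ y ∈ S, Conn S x y

/-- The box (parallelogram) with centre `p` and radius `r` (same as `F.X.bx`). -/
def bx (p : Pt) (r : ℤ) : Set Pt := {x | |x.1 - p.1| ≤ r ∧ |x.2 - p.2| ≤ r}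

/-- The vertices which are not joined to infinity off `S`: `S` together with its holes. -/
def fill (S : Set Pt) : Set Pt := {x | x ∈ S ∨ {y | Conn Sᶜ x y}.Finite}

/-! ### Level sets -/

/-- `{h ≥ a}`. -/
def up (h : Hg) (a : ℤ) : Set Pt := {x | a ≤ h x}

/-- `{h ≤ a}`. -/
def dn (h : Hg) (a : ℤ) : Set Pt := {x | h x ≤ a}

/-- `{h = a}`. -/
def lev (h : Hg) (a : ℤ) : Set Pt := {x | h x = a}

/-- `|h - m| ≠ 1`; an edge is closed at level `m` if `|h - m| = 1` at both ends. -/
def far (h : Hg) (m : ℤ) : Set Pt := {x | |h x - m| ≠ 1}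

/-- Open step at the even level `m` (not closed: some end has `|h - m| ≥ 3`). -/
def OpL (m : ℤ) (h : Hg) (x y : Pt) : Prop := Adj x y ∧ ¬ (|h x - m| = 1 ∧ |h y - m| = 1)

/-- The union of the open clusters (level `m`) of the vertices of `A`. -/
def CluL (m : ℤ) (A : Set Pt) (h : Hg) : Set Pt := {y | ∃ x ∈ A, ReflTransGen (OpL m h) x y}

/-- Reflection of the heights about `c` on the set `K`. -/
noncomputable def refl (c : ℤ) (K : Set Pt) (h : Hg) : Hg :=
  open Classical in fun x => if x ∈ K then 2 * c - h x else h x

/-! ### Data -/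

open Classical in
/-- Exact data `η` off `V`. -/
noncomputable def exa (V : Set Pt) (η : Hg) : Pt → Set ℤ := fun x => if x ∈ V then univ else {η x}

open Classical in
/-- Free data at the even level `m`: heights `m ± 1` on the outer boundary of `V`, the dummy value
`m + 1` farther away. -/
noncomputable def frd (V : Set Pt) (m : ℤ) : Pt → Set ℤ := fun x =>
  if x ∈ V then univ else if x ∈ ebd V then {m - 1, m + 1} else {m + 1}

open Classical in
/-- Add constraints `J` on the set `A`. -/
noncomputable def cns (I : Pt → Set ℤ) (A : Set Pt) (J : Pt → Set ℤ) : Pt → Set ℤ := fun x =>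
  if x ∈ A then I x ∩ J x else I x

open Classical in
/-- Replace the data by `J` on the set `A`. -/
noncomputable def rpl (I : Pt → Set ℤ) (A : Set Pt) (J : Pt → Set ℤ) : Pt → Set ℤ := fun x =>
  if x ∈ A then J x else I x

/-- The strong order of sets of heights: `S` is below `T`. -/
def SLe (S T : Set ℤ) : Prop := ∀ a ∈ S, ∀ b ∈ T, min a b ∈ S ∧ max a b ∈ T

end Vale.Agent.P153.R2
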